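import Vale.Agent.P054.MathlibUsed
import Vale.Agent.P054.H438.Four
import Vale.Agent.P054.H438.MFAll

set_option autoImplicit false
set_option linter.all false

namespace Vale.Agent.Results.P054.FewPointsOnFlats

/-- the number of distinct distances from `p` to the other points of `P` -/
noncomputable def pinned {d : ℕ} (P : Finset (EuclideanSpace ℝ (Fin d)))
    (p : EuclideanSpace ℝ (Fin d)) : ℕ :=
  {r : ℝ | ∃ q ∈ P, q ≠ p ∧ r = dist p q}.ncard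

/-- every `k`-dimensional affine subspace contains at most `m` points of `P` -/
def FlatsLE {d : ℕ} (k : ℕ) (P : Finset (EuclideanSpace ℝ (Fin d))) (m : ℝ) : Prop :=
  ∀ E : AffineSubspace ℝ (EuclideanSpace ℝ (Fin d)), Module.finrank ℝ E.direction = k →
    (({z : EuclideanSpace ℝ (Fin d) | z ∈ P ∧ z ∈ E}.ncard : ℕ) : ℝ) ≤ m

theorem result :
    (∀ d k : ℕ, 1 ≤ k → k < d → ∀ ε : ℝ, 0 < ε → ∃ c : ℝ, 0 < c ∧
      ∀ (P : Finset (EuclideanSpace ℝ (Fin d))) (m : ℝ), 2 ≤ P.card → FlatsLE k P m →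
        ∃ p ∈ P, c * ((P.card : ℝ) ^ (-ε) * min ((P.card : ℝ) ^ (2 / (d : ℝ)))
          (((P.card : ℝ) ^ (2 * (d : ℝ) - k - 1) / m ^ ((d : ℝ) - 1)) ^
            (1 / ((d : ℝ) * ((d : ℝ) - k))))) ≤ (pinned P p : ℝ)) ∧
    (∀ d : ℕ, 2 ≤ d → ∀ ε : ℝ, 0 < ε → ∃ c : ℝ, 0 < c ∧
      ∀ (P : Finset (EuclideanSpace ℝ (Fin d))) (m : ℝ), 2 ≤ P.card → FlatsLE 1 P m →
        ∃ p ∈ P, c * ((P.card : ℝ) ^ (2 / (d : ℝ) - ε) / m ^ (1 / (d : ℝ))) ≤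
          (pinned P p : ℝ)) ∧
    (∀ d k : ℕ, 1 ≤ k → d = k + 2 → ∀ ε : ℝ, 0 < ε → ∃ c : ℝ, 0 < c ∧
      ∀ (P : Finset (EuclideanSpace ℝ (Fin d))) (m : ℝ), 2 ≤ P.card → FlatsLE k P m →
        ∃ p ∈ P, c * ((P.card : ℝ) ^ (((d : ℝ) + 1) / (2 * d) - ε) /
            m ^ (((d : ℝ) - 1) / (2 * d))) ≤ (pinned P p : ℝ)) ∧
    (∀ d k : ℕ, 1 ≤ k → k < d → ∀ M : ℝ, ∀ ε : ℝ, 0 < ε → ∃ c : ℝ, 0 < c ∧
      ∀ P : Finset (EuclideanSpace ℝ (Fin d)), 2 ≤ P.card →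
        FlatsLE k P (M * (P.card : ℝ) ^ (((k : ℝ) - 1) / ((d : ℝ) - 1))) →
        ∃ p ∈ P, c * (P.card : ℝ) ^ (2 / (d : ℝ) - ε) ≤ (pinned P p : ℝ)) :=
  Vale.Agent.P054F.four_forms (fun d k hk hkd => Vale.Agent.P054F.MF_all d k hk hkd)

end Vale.Agent.Results.P054.FewPointsOnFlats
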