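import Vale.Agent.P054.MathlibUsed
import Vale.Agent.P054.H343.Bis
import Vale.Agent.P054.H449.RM.Key2

set_option autoImplicit false
set_option linter.all false

namespace Vale.Agent.Results.P054.RichMirrors

/-- the number of distinct distances from `p` to the other points of `P` -/
noncomputable def pinned {d : ℕ} (P : Finset (EuclideanSpace ℝ (Fin d)))
    (p : EuclideanSpace ℝ (Fin d)) : ℕ :=
  {r : ℝ | ∃ q ∈ P, q ≠ p ∧ r = dist p q}.ncard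

/-- `H` contains more than `M` points of `P` and is the perpendicular bisector of more than `m`
ordered pairs of distinct points of `P` -/
def Mirror {d : ℕ} (P : Finset (EuclideanSpace ℝ (Fin d))) (M m : ℝ)
    (H : AffineSubspace ℝ (EuclideanSpace ℝ (Fin d))) : Prop :=
  M < ({z | z ∈ P ∧ z ∈ H}.ncard : ℝ) ∧
    m < ({q : EuclideanSpace ℝ (Fin d) × EuclideanSpace ℝ (Fin d) |
      q.1 ∈ P ∧ q.2 ∈ P ∧ q.1 ≠ q.2 ∧ AffineSubspace.perpBisector q.1 q.2 = H}.ncard : ℝ)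

/-- at most half of the points of `P` lie on more than `b` mirrors -/
def FewMirrors {d : ℕ} (P : Finset (EuclideanSpace ℝ (Fin d))) (M m b : ℝ) : Prop :=
  2 * {p | p ∈ P ∧ b < ({H | Mirror P M m H ∧ p ∈ H}.ncard : ℝ)}.ncard ≤ P.card

theorem result :
    (∀ d : ℕ, 2 ≤ d → ∀ ε : ℝ, 0 < ε → ∃ c : ℝ, 0 < c ∧
      ∀ (P : Finset (EuclideanSpace ℝ (Fin d))) (M m b : ℝ), 2 ≤ P.card → 1 ≤ M → 1 ≤ m →
        1 ≤ b → FewMirrors P M m b → ∃ p ∈ P, c * ((P.card : ℝ) ^ (-ε) *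
          min (min ((P.card : ℝ) ^ (2 / (d : ℝ))) ((P.card : ℝ) / M ^ (((d : ℝ) - 1) / d)))
            (min ((P.card : ℝ) / b ^ ((d : ℝ) - 1))
              (((P.card : ℝ) ^ (3 * (d : ℝ) - 2) / m ^ ((d : ℝ) - 1)) ^ (1 / (d : ℝ) ^ 2)))) ≤
          (pinned P p : ℝ)) ∧
    (∀ d : ℕ, 2 ≤ d → ∀ A : ℝ, 1 ≤ A → ∀ ε : ℝ, 0 < ε → ∃ c : ℝ, 0 < c ∧
      ∀ P : Finset (EuclideanSpace ℝ (Fin d)), 2 ≤ P.card →
        FewMirrors P (A * (P.card : ℝ) ^ (((d : ℝ) - 2) / ((d : ℝ) - 1)))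
          (A * (P.card : ℝ) ^ (((d : ℝ) - 2) / ((d : ℝ) - 1)))
          (A * (P.card : ℝ) ^ (((d : ℝ) - 2) / ((d : ℝ) * ((d : ℝ) - 1)))) →
        ∃ p ∈ P, c * (P.card : ℝ) ^ (2 / (d : ℝ) - ε) ≤ (pinned P p : ℝ)) := by
  constructor
  · intro d hd ε hε
    obtain ⟨K, c, hK, hkey⟩ := Vale.Agent.P054M.keyRM d hd
    obtain ⟨c0, hc0, h⟩ := Vale.Agent.P054M.rm_real d hd K c hK hkey ε hε
    exact ⟨c0, hc0, fun P M m b hP hM hm hb hfew => h P M m b hP hM hm hb hfew⟩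
  · intro d hd A hA ε hε
    obtain ⟨K, c, hK, hkey⟩ := Vale.Agent.P054M.keyRM d hd
    obtain ⟨c0, hc0, h⟩ := Vale.Agent.P054M.rm_real d hd K c hK hkey ε hε
    have hA0 : 0 < A := by linarith
    have hD : (2:ℝ) ≤ d := by exact_mod_cast hd
    refine ⟨c0 * (A ^ (d:ℝ))⁻¹, by positivity, ?_⟩
    intro P hP hfew
    have hn1 : (1:ℝ) ≤ P.card := by exact_mod_cast (by omega : 1 ≤ P.card)
    have hn0 : (0:ℝ) < P.card := by linarith
    have e1 : 0 ≤ ((d : ℝ) - 2) / ((d : ℝ) - 1) := div_nonneg (by linarith) (by linarith)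
    have e2 : 0 ≤ ((d : ℝ) - 2) / ((d : ℝ) * ((d : ℝ) - 1)) :=
      div_nonneg (by linarith) (mul_nonneg (by linarith) (by linarith))
    have f1 : 1 ≤ A * (P.card : ℝ) ^ (((d : ℝ) - 2) / ((d : ℝ) - 1)) :=
      one_le_mul_of_one_le_of_one_le hA (Real.one_le_rpow hn1 e1)
    have f2 : 1 ≤ A * (P.card : ℝ) ^ (((d : ℝ) - 2) / ((d : ℝ) * ((d : ℝ) - 1))) :=
      one_le_mul_of_one_le_of_one_le hA (Real.one_le_rpow hn1 e2)
    obtain ⟨p, hp, hb⟩ := h P _ _ _ hP f1 f1 f2 hfew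
    refine ⟨p, hp, le_trans ?_ hb⟩
    have h1 := Vale.Agent.P054M.lowRM_crit hd hn1 hA
    calc c0 * (A ^ (d:ℝ))⁻¹ * (P.card : ℝ) ^ (2 / (d : ℝ) - ε)
        = c0 * ((P.card : ℝ) ^ (-ε) * ((A ^ (d:ℝ))⁻¹ * (P.card : ℝ) ^ (2 / (d : ℝ)))) := by
          rw [sub_eq_add_neg, Real.rpow_add hn0]; ring
      _ ≤ _ := by
          apply mul_le_mul_of_nonneg_left _ hc0.le
          exact mul_le_mul_of_nonneg_left h1 (by positivity)

end Vale.Agent.Results.P054.RichMirrors
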