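import Vale.Agent.P054.MathlibUsed
import Vale.Agent.P054.H239.HOut
import Vale.Agent.P054.H239.HSeqC
import Vale.Agent.P054.H239.HFam
import Vale.Agent.P054.H239.YOut
import Vale.Agent.P054.H343.G.LocC
import Vale.Agent.P054.H25.Closed
import Vale.Agent.P054.H25.BaseN

set_option autoImplicit false
set_option linter.all false

namespace Vale.Agent.Results.P054.SharperExponents

/-- the number of distinct distances from `p` to the other points of `P` -/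
noncomputable def pinned {d : ℕ} (P : Finset (EuclideanSpace ℝ (Fin d)))
    (p : EuclideanSpace ℝ (Fin d)) : ℕ :=
  {r : ℝ | ∃ q ∈ P, q ≠ p ∧ r = dist p q}.ncard

/-- `g d n`: the least number of distinct distances determined by `n` points of `ℝ^d` -/
noncomputable def g (d n : ℕ) : ℕ :=
  sInf {k : ℕ | ∃ P : Finset (EuclideanSpace ℝ (Fin d)), P.card = n ∧
    {r : ℝ | ∃ p ∈ P, ∃ q ∈ P, p ≠ q ∧ r = dist p q}.ncard = k}

/-- `b u v 2 = u`, `b u v 3 = v` and, for `d ≥ 4`, `b u v d` is the larger one of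
`(d ^ 2 + 1 + κ b u v (d - 1)) / (2 d + κ)`, `κ = (d - 1) / (3 (d - 2))`, and
`(d ^ 2 + 1 + κ b u v (d - 2)) / (2 d + κ)`, `κ = (d - 1) / (6 (d - 2))` -/
noncomputable def b (u v : ℝ) : ℕ → ℝ
  | 0 => 0
  | 1 => 1
  | 2 => u
  | 3 => v
  | (k + 4) => max
      ((((k + 4 : ℕ) : ℝ) ^ 2 + 1 + ((k : ℝ) + 3) / (3 * ((k : ℝ) + 2)) * b u v (k + 3)) /
        (2 * ((k + 4 : ℕ) : ℝ) + ((k : ℝ) + 3) / (3 * ((k : ℝ) + 2))))
      ((((k + 4 : ℕ) : ℝ) ^ 2 + 1 + ((k : ℝ) + 3) / (6 * ((k : ℝ) + 2)) * b u v (k + 2)) /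
        (2 * ((k + 4 : ℕ) : ℝ) + ((k : ℝ) + 3) / (6 * ((k : ℝ) + 2))))

open Vale.Agent.P054I in
theorem aF_le (d : ℕ) (hd : 4 ≤ d) {γ : ℝ} (hγ : ((d : ℝ) - 1) / 2 ≤ γ) :
    aF d 12 ≤ aS d (k1C d) γ := by
  have hD : (4:ℝ) ≤ d := by exact_mod_cast hd
  refine le_trans ?_ (aS_mono d (by omega) (k1C_pos d).le hγ)
  have hκ : k1C d ≤ ((d:ℝ) - 1) / 6 := by
    rw [k1C_eq d (by omega)]
    apply div_le_div_of_nonneg_left (by linarith) (by norm_num) (by linarith)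
  have hκ0 := k1C_pos d
  unfold aF aS
  rw [div_le_div_iff₀ (by push_cast; nlinarith) (by linarith)]
  push_cast
  nlinarith [mul_nonneg (show (0:ℝ) ≤ (d:ℝ) + 1 by linarith) (sub_nonneg.mpr hκ)]

open Vale.Agent.P054I in
/-- the exponents of helper file `HFam` -/
noncomputable abbrev bU (u v : ℝ) (d : ℕ) : ℝ := bX k1C k2C 12 4 (iUV u v) d

open Vale.Agent.P054I in
theorem bU_low {u v : ℝ} (hu : 1 ≤ u) (hu' : u ≤ 5 / 4) (hv : 3 / 2 ≤ v) (hv' : v ≤ 5 / 3)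
    (d : ℕ) (hd : 1 ≤ d) : (d:ℝ) / 2 ≤ bU u v d :=
  (bX_bounds (F := 12) (κ1 := k1C) (κ2 := k2C) (d0 := 4) (init := iUV u v)
    (fun d => (k1C_pos d).le) k1C_le
    (fun d => (k2C_pos d).le) (by norm_num) (by simp [iUV]) (iUV_ok hu hu' hv hv') d hd).1

open Vale.Agent.P054I in
theorem b_eq {u v : ℝ} (hu : 1 ≤ u) (hu' : u ≤ 5 / 4) (hv : 3 / 2 ≤ v) (hv' : v ≤ 5 / 3)
    (d : ℕ) : b u v d = bU u v d := by
  induction d using Nat.strong_induction_on with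
  | _ d ih =>
    rcases Nat.lt_or_ge d 4 with h | h
    · unfold bU
      rw [bX_lt _ _ _ _ _ d h]
      interval_cases d
      · simp [b, iUV]
      · simp [b, iUV]
      · simp [b, iUV]
      · simp [b, iUV]
    · obtain ⟨k, rfl⟩ : ∃ k, d = k + 4 := ⟨d - 4, by omega⟩
      have h1 := ih (k + 3) (by omega)
      have h2 := ih (k + 2) (by omega)
      have hlow : (((k + 4 : ℕ) : ℝ) - 1) / 2 ≤ bU u v (k + 3) := by
        have := bU_low hu hu' hv hv' (k + 3) (by omega)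
        push_cast at this ⊢
        linarith
      have e : bU u v (k + 4) = max (max (aS (k + 4) (k1C (k + 4)) (bU u v (k + 3)))
          (aS (k + 4) (k2C (k + 4)) (bU u v (k + 2)))) (aF (k + 4) 12) := by
        unfold bU
        exact bX_ge _ _ _ _ _ (k + 4) (by omega) (by omega)
      have e2 : aF (k + 4) 12 ≤ aS (k + 4) (k1C (k + 4)) (bU u v (k + 3)) :=
        aF_le (k + 4) (by omega) hlow
      rw [e, max_eq_left (e2.trans (le_max_left _ _))]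
      have e3 : k2C (k + 4) = ((k : ℝ) + 3) / (6 * ((k : ℝ) + 2)) := by
        rw [k2C_eq (k + 4) (by omega)]
        push_cast
        congr 1 <;> ring
      have e4 : k1C (k + 4) = ((k : ℝ) + 3) / (3 * ((k : ℝ) + 2)) := by
        rw [k1C_eq (k + 4) (by omega)]
        push_cast
        congr 1 <;> ring
      unfold b
      rw [h1, h2]
      unfold aS
      rw [e3, e4]

theorem b_rec (u v : ℝ) (k : ℕ) : b u v (k + 4) = max
      ((((k + 4 : ℕ) : ℝ) ^ 2 + 1 + ((k : ℝ) + 3) / (3 * ((k : ℝ) + 2)) * b u v (k + 3)) /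
        (2 * ((k + 4 : ℕ) : ℝ) + ((k : ℝ) + 3) / (3 * ((k : ℝ) + 2))))
      ((((k + 4 : ℕ) : ℝ) ^ 2 + 1 + ((k : ℝ) + 3) / (6 * ((k : ℝ) + 2)) * b u v (k + 2)) /
        (2 * ((k + 4 : ℕ) : ℝ) + ((k : ℝ) + 3) / (6 * ((k : ℝ) + 2)))) := by
  conv_lhs => unfold b

theorem b_four : b 1 (3 / 2) 4 = 23 / 11 := by
  have h2 : b 1 (3 / 2) 2 = 1 := by simp [b]
  have h3 : b 1 (3 / 2) 3 = 3 / 2 := by simp [b]
  have h := b_rec 1 (3 / 2) 0
  simp only [zero_add] at h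
  rw [h2, h3] at h
  norm_num at h
  exact h

theorem b_three (u v : ℝ) : b u v 3 = v := by simp [b]

open Vale.Agent.P054I in
/-- closed form bound -/
theorem bU_le {u v : ℝ} (hu : 1 ≤ u) (hu' : u ≤ 28 / 23) (hv : 3 / 2 ≤ v) (hv' : v ≤ 57 / 35)
    (d : ℕ) (hd : 3 ≤ d) : bU u v d ≤ (d:ℝ) / 2 + (5 / 6) / (2 * d) := by
  have hge : ∀ e : ℕ, 4 ≤ e → bU u v e =
      max (max (aS e (k1C e) (bU u v (e - 1))) (aS e (k2C e) (bU u v (e - 2)))) (aF e 12) := by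
    intro e he
    have h1 := bX_ge k1C k2C 12 4 (iUV u v) e (by omega) he
    unfold bU
    rw [h1]
  have hb2 : bU u v 2 ≤ 28 / 23 := by
    unfold bU; rw [bX_lt _ _ _ _ _ 2 (by norm_num)]; exact hu'
  have hb3' : bU u v 3 ≤ 57 / 35 := by
    unfold bU; rw [bX_lt _ _ _ _ _ 3 (by norm_num)]; exact hv'
  have hb3 : bU u v 3 ≤ (3:ℝ) / 2 + (5 / 6) / (2 * 3) := hb3'.trans (by norm_num)
  have hb4 : bU u v 4 ≤ (4:ℝ) / 2 + (5 / 6) / (2 * 4) := by
    rw [hge 4 (by norm_num)]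
    simp only [Nat.reduceSub]
    refine max_le (max_le ?_ ?_) ?_
    · refine (aS_mono 4 (by norm_num) (k1C_pos 4).le hb3').trans ?_
      unfold aS k1C; norm_num
    · refine (aS_mono 4 (by norm_num) (k2C_pos 4).le hb2).trans ?_
      unfold aS k2C; norm_num
    · unfold aF; norm_num
  induction d using Nat.strong_induction_on with
  | _ d ih =>
    rcases Nat.lt_or_ge d 5 with h | h
    · interval_cases d
      · exact_mod_cast hb3
      · exact_mod_cast hb4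
    · have c1 : ((d - 1 : ℕ) : ℝ) = (d:ℝ) - 1 := by rw [Nat.cast_sub (by omega)]; simp
      have c2 : ((d - 2 : ℕ) : ℝ) = (d:ℝ) - 2 := by rw [Nat.cast_sub (by omega)]; simp
      have i1 := ih (d - 1) (by omega) (by omega)
      have i2 := ih (d - 2) (by omega) (by omega)
      rw [c1] at i1
      rw [c2] at i2
      rw [hge d (by omega)]
      exact max_le (max_le (term1C d hd i1) (term2C d hd i2)) (aF_le_delC d (by omega))

theorem b_pos {u v : ℝ} (hu : 1 ≤ u) (hu' : u ≤ 5 / 4) (hv : 3 / 2 ≤ v) (hv' : v ≤ 5 / 3)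
    (d : ℕ) (hd : 1 ≤ d) : 0 < b u v d := by
  have h := bU_low hu hu' hv hv' d hd
  rw [← b_eq hu hu' hv hv'] at h
  have hD : (1:ℝ) ≤ d := by exact_mod_cast hd
  linarith

theorem b_le {u v : ℝ} (hu : 1 ≤ u) (hu' : u ≤ 28 / 23) (hv : 3 / 2 ≤ v) (hv' : v ≤ 57 / 35)
    (d : ℕ) (hd : 3 ≤ d) : 12 * (d : ℝ) / (6 * (d : ℝ) ^ 2 + 5) ≤ 1 / b u v d := by
  have hD : (3:ℝ) ≤ d := by exact_mod_cast hd
  have h1 := bU_le hu hu' hv hv' d hd
  rw [← b_eq hu (by linarith) hv (by linarith)] at h1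
  have hpos := b_pos hu (by linarith : u ≤ 5 / 4) hv (by linarith : v ≤ 5 / 3) d (by omega)
  have e : 12 * (d : ℝ) / (6 * (d : ℝ) ^ 2 + 5) = 1 / ((d:ℝ) / 2 + (5 / 6) / (2 * d)) := by
    rw [eq_div_iff (by positivity)]
    field_simp
    ring
  rw [e]
  exact one_div_le_one_div_of_le hpos h1

open Vale.Agent.P054I in
theorem sexP (d : ℕ) : Sex d (PC d) (b (28 / 23) (57 / 35) d) := by
  rw [b_eq (by norm_num) (by norm_num) (by norm_num) (by norm_num)]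
  exact sexPC_uv keyX_all (by norm_num) (by norm_num) (by norm_num) (by norm_num)
    sexPC_two sexPC_three d

open Vale.Agent.P054I in
theorem sexD (d : ℕ) : Sex d (DC d) (b 1 (3 / 2) d) := by
  rw [b_eq (by norm_num) (by norm_num) (by norm_num) (by norm_num)]
  exact sexDC_uv keyX_all (by norm_num) (by norm_num) (by norm_num) (by norm_num)
    sex_dc2 sex_dc3 d

theorem result :
    -- pinned distances in every dimension `d ≥ 3`
    (∀ d : ℕ, 3 ≤ d → ∀ ε : ℝ, 0 < ε → ∃ c : ℝ, 0 < c ∧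
      ∀ P : Finset (EuclideanSpace ℝ (Fin d)), 2 ≤ P.card → ∃ p ∈ P,
        c * (P.card : ℝ) ^ (1 / b (28 / 23) (57 / 35) d - ε) ≤ (pinned P p : ℝ)) ∧
    -- all distances in every dimension `d ≥ 4`
    (∀ d : ℕ, 4 ≤ d → ∀ ε : ℝ, 0 < ε → ∃ c : ℝ, 0 < c ∧
      ∀ n : ℕ, 2 ≤ n → c * (n : ℝ) ^ (1 / b 1 (3 / 2) d - ε) ≤ ((g d n : ℕ) : ℝ)) ∧
    -- the exponents
    b (28 / 23) (57 / 35) 3 = 57 / 35 ∧ b 1 (3 / 2) 4 = 23 / 11 ∧
    ∀ d : ℕ, 3 ≤ d → 12 * (d : ℝ) / (6 * (d : ℝ) ^ 2 + 5) ≤ 1 / b (28 / 23) (57 / 35) d ∧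
      12 * (d : ℝ) / (6 * (d : ℝ) ^ 2 + 5) ≤ 1 / b 1 (3 / 2) d := by
  refine ⟨?_, ?_, b_three _ _, b_four, ?_⟩
  · intro d hd ε hε
    have hpos : 0 < b (28 / 23) (57 / 35) d :=
      b_pos (by norm_num) (by norm_num) (by norm_num) (by norm_num) d (by omega)
    obtain ⟨c, hc, h4, -⟩ := Vale.Agent.P054I.lower_sets hpos
      (Vale.Agent.P054I.pex_of_sex (sexP d)) ε hε
    refine ⟨c, hc, fun P hP => ?_⟩
    obtain ⟨p, hp, h5⟩ := h4 P hP
    exact ⟨p, hp, h5⟩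
  · intro d hd ε hε
    have hpos : 0 < b 1 (3 / 2) d :=
      b_pos (by norm_num) (by norm_num) (by norm_num) (by norm_num) d (by omega)
    obtain ⟨c, hc, h4⟩ := Vale.Agent.P054I.lower_DC hpos (sexD d) ε hε
    refine ⟨c, hc, fun n hn => ?_⟩
    have hne : {k : ℕ | ∃ P : Finset (EuclideanSpace ℝ (Fin d)), P.card = n ∧
        {r : ℝ | ∃ p ∈ P, ∃ q ∈ P, p ≠ q ∧ r = dist p q}.ncard = k}.Nonempty := by
      have : Infinite (EuclideanSpace ℝ (Fin d)) := by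
        have : Nonempty (Fin d) := ⟨⟨0, by omega⟩⟩
        exact inferInstance
      obtain ⟨P, hP⟩ := Infinite.exists_subset_card_eq (EuclideanSpace ℝ (Fin d)) n
      exact ⟨_, P, hP, rfl⟩
    obtain ⟨P, hPn, hPk⟩ := Nat.sInf_mem hne
    have hgk : g d n = {r : ℝ | ∃ p ∈ P, ∃ q ∈ P, p ≠ q ∧ r = dist p q}.ncard := by
      unfold g
      rw [hPk]
    rw [hgk, ← hPn]
    exact h4 P (by omega)
  · intro d hd
    exact ⟨b_le (by norm_num) le_rfl (by norm_num) le_rfl d hd,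
      b_le le_rfl (by norm_num) le_rfl (by norm_num) d hd⟩

end Vale.Agent.Results.P054.SharperExponents
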