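import Vale.Agent.P054.H25P.Fin

set_option autoImplicit false
set_option linter.all false

namespace Vale.Agent.Results.P054.SmallBlocks

/-- the orthogonal projection of `p` on the block `j`: the span of the vectors `b i` of the
orthonormal basis `b` with `β i = j` -/
noncomputable def proj {d : ℕ} (b : OrthonormalBasis (Fin d) ℝ (EuclideanSpace ℝ (Fin d)))
    (β : Fin d → ℕ) (j : ℕ) (p : EuclideanSpace ℝ (Fin d)) : EuclideanSpace ℝ (Fin d) :=
  ∑ i ∈ Finset.univ.filter (fun i => β i = j), (inner ℝ (b i) p : ℝ) • b i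

theorem proj_eq_iff {d : ℕ} (b : OrthonormalBasis (Fin d) ℝ (EuclideanSpace ℝ (Fin d)))
    (β : Fin d → ℕ) (j : ℕ) (p q : EuclideanSpace ℝ (Fin d)) :
    proj b β j p = proj b β j q ↔
      Vale.Agent.P054P.blk β j (b.repr p) = Vale.Agent.P054P.blk β j (b.repr q) := by
  constructor
  · intro h
    funext ⟨i, hi⟩
    have hi' : i ∈ Finset.univ.filter (fun i => β i = j) :=
      Finset.mem_filter.mpr ⟨Finset.mem_univ _, hi⟩
    have h1 := congrArg (fun v => (inner ℝ (b i) v : ℝ)) h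
    simp only [proj] at h1
    rw [b.orthonormal.inner_right_sum (fun i => (inner ℝ (b i) p : ℝ)) hi',
      b.orthonormal.inner_right_sum (fun i => (inner ℝ (b i) q : ℝ)) hi'] at h1
    show b.repr p i = b.repr q i
    rw [OrthonormalBasis.repr_apply_apply, OrthonormalBasis.repr_apply_apply]
    exact h1
  · intro h
    unfold proj
    refine Finset.sum_congr rfl (fun i hi => ?_)
    have h1 : b.repr p i = b.repr q i :=
      congrFun h ⟨i, (Finset.mem_filter.mp hi).2⟩
    rw [OrthonormalBasis.repr_apply_apply, OrthonormalBasis.repr_apply_apply] at h1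
    rw [h1]

theorem result :
    ∀ d : ℕ, 2 ≤ d → ∀ ε : ℝ, 0 < ε → ∃ c : ℝ, 0 < c ∧
      ∀ (b : OrthonormalBasis (Fin d) ℝ (EuclideanSpace ℝ (Fin d))) (β : Fin d → ℕ),
        (∀ j, (Finset.univ.filter (fun i => β i = j)).card ≤ 3) →
        ∀ P : Finset (EuclideanSpace ℝ (Fin d)), 2 ≤ P.card →
          c * ((P.card : ℝ) / ∏ j ∈ Finset.univ.image β,
            (((proj b β j '' (P : Set (EuclideanSpace ℝ (Fin d)))).ncard : ℕ) : ℝ)) ^ 4 *
            (P.card : ℝ) ^ (2 / (d : ℝ) - ε) ≤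
            (({r : ℝ | ∃ p ∈ P, ∃ q ∈ P, p ≠ q ∧ r = dist p q}.ncard : ℕ) : ℝ) := by
  classical
  intro d hd ε hε
  obtain ⟨c, hc, h⟩ := Vale.Agent.P054P.small_blocks d hd ε hε
  refine ⟨c, hc, ?_⟩
  intro b β hβ P hP
  have hinj : Function.Injective (fun p => b.repr p) := b.repr.injective
  have hcard : (P.image (fun p => b.repr p)).card = P.card :=
    Finset.card_image_of_injective P hinj
  have h1 := h β (P.image (fun p => b.repr p)) hβ (by rw [hcard]; exact hP)
  rw [hcard] at h1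
  have hbn : ∀ j, Vale.Agent.P054P.bn β (P.image (fun p => b.repr p)) j =
      (proj b β j '' (P : Set (EuclideanSpace ℝ (Fin d)))).ncard := by
    intro j
    rw [← Finset.coe_image, Set.ncard_coe_finset]
    unfold Vale.Agent.P054P.bn
    rw [Finset.image_image]
    apply le_antisymm
    · apply Vale.Agent.P054P.card_image_le_of
      intro p _ q _ hpq
      exact (proj_eq_iff b β j p q).mp hpq
    · apply Vale.Agent.P054P.card_image_le_of
      intro p _ q _ hpq
      exact (proj_eq_iff b β j p q).mpr hpq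
  have hprod : ∏ j ∈ Finset.univ.image β,
      (Vale.Agent.P054P.bn β (P.image (fun p => b.repr p)) j : ℝ) =
      ∏ j ∈ Finset.univ.image β,
        (((proj b β j '' (P : Set (EuclideanSpace ℝ (Fin d)))).ncard : ℕ) : ℝ) :=
    Finset.prod_congr rfl (fun j _ => by rw [hbn j])
  rw [hprod] at h1
  refine h1.trans ?_
  have h2 : {r : ℝ | ∃ p ∈ P, ∃ q ∈ P, p ≠ q ∧ r = dist p q} =
      (((P.offDiag).image (fun p => dist p.1 p.2) : Finset ℝ) : Set ℝ) := by
    ext r
    simp only [Set.mem_ofPred_eq, Finset.coe_image, Set.mem_image, Finset.mem_coe,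
      Finset.mem_offDiag]
    constructor
    · rintro ⟨p, hp, q, hq, hpq, rfl⟩
      exact ⟨(p, q), ⟨hp, hq, hpq⟩, rfl⟩
    · rintro ⟨⟨p, q⟩, ⟨hp, hq, hpq⟩, rfl⟩
      exact ⟨p, hp, q, hq, hpq, rfl⟩
  rw [h2, Set.ncard_coe_finset]
  have h3 : (P.image (fun p => b.repr p)).offDiag.image (fun q => dist q.1 q.2) ⊆
      P.offDiag.image (fun q => dist q.1 q.2) := by
    intro r hr
    rw [Finset.mem_image] at hr ⊢
    obtain ⟨⟨x, y⟩, hxy, rfl⟩ := hr
    rw [Finset.mem_offDiag] at hxy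
    obtain ⟨hx, hy, hne⟩ := hxy
    obtain ⟨p, hp, rfl⟩ := Finset.mem_image.mp hx
    obtain ⟨q, hq, rfl⟩ := Finset.mem_image.mp hy
    refine ⟨(p, q), Finset.mem_offDiag.mpr ⟨hp, hq, fun h4 => hne ?_⟩, ?_⟩
    · simp only at h4 ⊢
      rw [h4]
    · exact (b.repr.dist_map p q).symm
  exact_mod_cast Finset.card_le_card h3

end Vale.Agent.Results.P054.SmallBlocks
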